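import Vale.Agent.Lib.P254.TFinal
import Vale.Agent.Lib.P254c.Main6

/-!
# P254: all our results on the strong isotropic constant conjecture

* value of `L` for simplices; the conjecture (with equality clause) for hulls of at most `n+2` points and for
  `n+m` points that split into `m` parts whose hulls share a point, with an exact formula;
* exact multiplicativity of `L_K^{2n} / L_{Δ_n}^{2n}` under joins and pyramids, multiplicativity of `L_K^{2n}` under
  products, exact formula for free sums; the conjecture with its equality clause is preserved by these operations;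
* the conjecture in dimension `n+1` implies the conjecture in dimension `n`; the conjecture in dimension `n` implies it
  for all pyramids, prisms and bipyramids over `n`-dimensional convex bodies.
-/

namespace Vale.Agent.Results.P254.AAllResults

open _root_.P254

theorem result :
    (∀ n : ℕ, 1 ≤ n →
      (∀ T : Set (E n), IsSimplex T → isoConst T = simplexConst n) ∧
      (∀ s : Finset (E n), s.card ≤ n + 2 →
        (interior (convexHull ℝ (s : Set (E n)))).Nonempty →
          Strong (convexHull ℝ (s : Set (E n)))) ∧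
      (∀ (m : ℕ) (ι : Type) [Fintype ι] (v : ι → E n) (β : ι → Fin m) (a : ι → ℝ) (o : E n),
        1 ≤ m → Fintype.card ι = n + m → (∀ i, 0 ≤ a i) →
        (∀ r, ∑ i, (if β i = r then a i else 0) = 1) →
        (∀ r, ∑ i, (if β i = r then a i • v i else 0) = o) →
        (interior (convexHull ℝ (Set.range v))).Nonempty →
          isoPow (convexHull ℝ (Set.range v))
            = cN n * ((∏ r : Fin m, ∑ i, (if β i = r then (a i) ^ 2 else 0))
                * (∑ r : Fin m, 1 / (∑ i, (if β i = r then (a i) ^ 2 else 0)) - ((m : ℝ) - 1))) ∧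
          Strong (convexHull ℝ (Set.range v)))) ∧
    (∀ (n m : ℕ) (K : Set (E n)) (K' : Set (E m)), IsCompact K → IsCompact K' → 0 < vol K →
      0 < vol K' →
      isoPow (join K K') / cN (n + m + 1) = (isoPow K / cN n) * (isoPow K' / cN m) ∧
      IsCompact (join K K') ∧ 0 < vol (join K K') ∧
      (Convex ℝ K → Convex ℝ K' → Convex ℝ (join K K')) ∧
      (1 ≤ n → 1 ≤ m → isoConst K ≤ simplexConst n → isoConst K' ≤ simplexConst m →
        isoConst (join K K') ≤ simplexConst (n + m + 1))) ∧
    (∀ (n : ℕ) (K : Set (E n)), IsCompact K → 0 < vol K →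
      isoPow (pyramid K) / cN (n + 1) = isoPow K / cN n ∧
      IsCompact (pyramid K) ∧ 0 < vol (pyramid K) ∧ (Convex ℝ K → Convex ℝ (pyramid K)) ∧
      (1 ≤ n → (isoConst (pyramid K) ≤ simplexConst (n + 1) ↔ isoConst K ≤ simplexConst n))) ∧
    (∀ (n m : ℕ) (K : Set (E n)) (K' : Set (E m)), IsCompact K → IsCompact K' → 0 < vol K →
      0 < vol K' →
      isoPow (prod K K') = isoPow K * isoPow K' ∧
      IsCompact (prod K K') ∧ 0 < vol (prod K K') ∧
      (Convex ℝ K → Convex ℝ K' → Convex ℝ (prod K K')) ∧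
      (1 ≤ n → 1 ≤ m → isoConst K ≤ simplexConst n → isoConst K' ≤ simplexConst m →
        isoConst (prod K K') < simplexConst (n + m))) ∧
    (∀ (n m : ℕ) (K : Set (E n)) (K' : Set (E m)), 1 ≤ n → 1 ≤ m → IsCompact K → IsCompact K' →
      0 < vol K → 0 < vol K' → Strong K → Strong K' → Strong (join K K')) ∧
    (∀ (n : ℕ) (K : Set (E n)), 1 ≤ n → IsCompact K → (interior K).Nonempty → 0 < vol K →
      (Strong (pyramid K) ↔ Strong K)) ∧
    (∀ n : ℕ, 1 ≤ n → StrongConj (n + 1) → StrongConj n) ∧
    (∀ (n m : ℕ) (K : Set (E n)) (K' : Set (E m)), IsCompact K → IsCompact K' → Convex ℝ K →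
      Convex ℝ K' → (0 : E n) ∈ K → (0 : E m) ∈ K' → 0 < vol K → 0 < vol K' →
      free K K' = convexHull ℝ ((fun x : E n => Fin.append x (0 : E m)) '' K ∪
        (fun y : E m => Fin.append (0 : E n) y) '' K') ∧
      IsCompact (free K K') ∧ Convex ℝ (free K K') ∧ 0 < vol (free K K') ∧
      (0 ≤ sOrigin K ∧ sOrigin K ≤ (n : ℝ) * ((n : ℝ) + 2)) ∧
      (0 ≤ sOrigin K' ∧ sOrigin K' ≤ (m : ℝ) * ((m : ℝ) + 2)) ∧
      isoPow (free K K') / cN (n + m) = (isoPow K / cN n) * (isoPow K' / cN m)
        * (1 - ((n : ℝ) * ((n : ℝ) + 2) - sOrigin K) * ((m : ℝ) * ((m : ℝ) + 2) - sOrigin K')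
            / (((n : ℝ) + 1) * ((n : ℝ) + 2) * ((m : ℝ) + 1) * ((m : ℝ) + 2))) ∧
      isoPow (free K K') / cN (n + m) ≤ (isoPow K / cN n) * (isoPow K' / cN m) ∧
      (1 ≤ n → 1 ≤ m → isoConst K ≤ simplexConst n → isoConst K' ≤ simplexConst m →
        isoConst (free K K') ≤ simplexConst (n + m)) ∧
      (1 ≤ n → 1 ≤ m → Strong K → Strong K' → Strong (free K K'))) ∧
    (∀ n : ℕ, 1 ≤ n → StrongConj n → ∀ K : Set (E n), IsCompact K → Convex ℝ K →
      (interior K).Nonempty →
      Strong (pyramid K) ∧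
      (∀ a b : ℝ, a < b → isoConst (prod K (seg a b)) < simplexConst (n + 1)) ∧
      ((0 : E n) ∈ K → ∀ a b : ℝ, a ≤ 0 → 0 ≤ b → a < b → Strong (free K (seg a b)))) :=
  ⟨fun n hn => ⟨(_root_.P254.main n hn).1, (_root_.P254.main n hn).2,
      fun m _ _ v β a o hm hcard ha hsum ho hint =>
        _root_.P254.mainT n m hn hm hcard v β a o ha hsum ho hint⟩,
    _root_.P254.main2.1, _root_.P254.main2.2.1, _root_.P254.main2.2.2,
    fun _ _ K K' hn hm hK hK' hv hv' h h' => strong_join hn hm K K' hK hK' hv hv' h h',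
    fun _ K hn hK hint hv => strong_pyramid_iff hn K hK hint hv,
    fun _ hn h => strongConj_of_succ hn h,
    fun n m K K' hK hK' hc hc' h0 h0' hv hv' => main5 n m K K' hK hK' hc hc' h0 h0' hv hv',
    fun n hn h K hK hc hint => main6 n hn h K hK hc hint⟩

end Vale.Agent.Results.P254.AAllResults
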