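import Vale.Agent.Lib.P254.Final
import Vale.Agent.Lib.P254c.AsymAbs

/-!
# P254: the inequality of the strong isotropic constant conjecture is equivalent to its asymptotic forms

`r(K) = L_K^{2n} / L_{Δ_n}^{2n}` is multiplicative under joins.  So the `(k+1)`-fold join of a convex body `K` of `ℝ^n`
is a convex body of dimension `(k+1)(n+1) - 1` with `r = r(K)^(k+1)` (tensor power trick).  Consequently, if for every
`ε > 0` all convex bodies in all sufficiently large dimensions `N` satisfy `L_K ≤ (1+ε) L_{Δ_N}`, then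
`L_K ≤ L_{Δ_n}` for every `n ≥ 1` and every convex body `K` of `ℝ^n`.  Since `L_{Δ_N} ≤ 1/e` and
`liminf L_{Δ_N} ≥ 1/e`, the hypothesis can be replaced by `L_K ≤ 1/e + ε`.
-/

namespace Vale.Agent.Results.P254.AAsymptotic

open _root_.P254

theorem result :
    (∀ n : ℕ, 1 ≤ n → ∀ T : Set (E n), IsSimplex T → isoConst T = simplexConst n) ∧
    (∀ n : ℕ, 1 ≤ n → simplexConst n ≤ Real.exp (-1)) ∧
    (∀ ε : ℝ, 0 < ε → ∃ N0 : ℕ, ∀ N : ℕ, N0 ≤ N → Real.exp (-1) ≤ (1 + ε) * simplexConst N) ∧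
    (∀ (n m : ℕ) (K : Set (E n)) (K' : Set (E m)), IsCompact K → IsCompact K' → 0 < vol K →
      0 < vol K' →
      isoPow (join K K') / cN (n + m + 1) = (isoPow K / cN n) * (isoPow K' / cN m)) ∧
    (∀ (n : ℕ) (K : Set (E n)), IsCompact K → Convex ℝ K → (interior K).Nonempty → ∀ k : ℕ,
      IsCompact (joinPow K k) ∧ Convex ℝ (joinPow K k) ∧ (interior (joinPow K k)).Nonempty ∧
      dimJ n k + 1 = (k + 1) * (n + 1) ∧
      isoPow (joinPow K k) / cN (dimJ n k) = (isoPow K / cN n) ^ (k + 1)) ∧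
    ((∀ ε : ℝ, 0 < ε → ∃ N0 : ℕ, ∀ N : ℕ, N0 ≤ N → ∀ K : Set (E N), IsCompact K → Convex ℝ K →
        (interior K).Nonempty → isoConst K ≤ (1 + ε) * simplexConst N) ↔
      (∀ n : ℕ, 1 ≤ n → ∀ K : Set (E n), IsCompact K → Convex ℝ K → (interior K).Nonempty →
        isoConst K ≤ simplexConst n)) ∧
    ((∀ ε : ℝ, 0 < ε → ∃ N0 : ℕ, ∀ N : ℕ, N0 ≤ N → ∀ K : Set (E N), IsCompact K → Convex ℝ K →
        (interior K).Nonempty → isoConst K ≤ Real.exp (-1) + ε) ↔
      (∀ n : ℕ, 1 ≤ n → ∀ K : Set (E n), IsCompact K → Convex ℝ K → (interior K).Nonempty →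
        isoConst K ≤ simplexConst n)) :=
  ⟨fun n hn => (_root_.P254.main n hn).1,
    fun n hn => simplexConst_le_exp_neg_one n hn,
    fun ε hε => exp_neg_one_le_simplexConst ε hε,
    fun n m K K' hK hK' hv hv' => (main2.1 n m K K' hK hK' hv hv').1,
    fun n K hK hc hint k => by
      have hv : 0 < vol K := (interior_nonempty_iff_vol_pos K hK hc).1 hint
      obtain ⟨g1, g2, g3, g4⟩ := joinPow_props K hK hc hv k
      exact ⟨g1, g2, (interior_nonempty_iff_vol_pos _ g1 g2).2 g3, dimJ_succ_eq n k, g4⟩,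
    asym_iff_ineq, abs_iff_ineq⟩

end Vale.Agent.Results.P254.AAsymptotic
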