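import Vale.Agent.Results.P254.AALocalGlobal
import Vale.Agent.Results.P254.AAllResults
import Vale.Agent.Results.P254.AAsymptotic

/-!
# P254: all results of this folder in one statement

The statement of `AAllResults` (`PartA`), the local statement of `AALocalGlobal` (a hull of at most `n+2` points that
is not a simplex is not a local maximizer) and the asymptotic equivalences of `AAsymptotic` (`PartB`).
-/

namespace Vale.Agent.Results.P254.AAAEverything

open _root_.P254

/-- First half of the statement: special classes and closure properties. -/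
def PartA : Prop :=
    (∀ n : ℕ, 1 ≤ n →
      (∀ T : Set (E n), IsSimplex T → isoConst T = simplexConst n) ∧
      (∀ s : Finset (E n), s.card ≤ n + 2 →
        (interior (convexHull ℝ (s : Set (E n)))).Nonempty →
          Strong (convexHull ℝ (s : Set (E n)))) ∧
      (∀ (m : ℕ) (ι : Type) [Fintype ι] (v : ι → E n) (β : ι → Fin m) (a : ι → ℝ) (o : E n),
        1 ≤ m → Fintype.card ι = n + m → (∀ i, 0 ≤ a i) →
        (∀ r, ∑ i, (if β i = r then a i else 0) = 1) →
        (∀ r, ∑ i, (if β i = r then a i • v i else 0) = o) →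
        (interior (convexHull ℝ (Set.range v))).Nonempty →
          isoPow (convexHull ℝ (Set.range v))
            = cN n * ((∏ r : Fin m, ∑ i, (if β i = r then (a i) ^ 2 else 0))
                * (∑ r : Fin m, 1 / (∑ i, (if β i = r then (a i) ^ 2 else 0)) - ((m : ℝ) - 1))) ∧
          Strong (convexHull ℝ (Set.range v)))) ∧
    (∀ (n m : ℕ) (K : Set (E n)) (K' : Set (E m)), IsCompact K → IsCompact K' → 0 < vol K →
      0 < vol K' →
      isoPow (join K K') / cN (n + m + 1) = (isoPow K / cN n) * (isoPow K' / cN m) ∧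
      IsCompact (join K K') ∧ 0 < vol (join K K') ∧
      (Convex ℝ K → Convex ℝ K' → Convex ℝ (join K K')) ∧
      (1 ≤ n → 1 ≤ m → isoConst K ≤ simplexConst n → isoConst K' ≤ simplexConst m →
        isoConst (join K K') ≤ simplexConst (n + m + 1))) ∧
    (∀ (n : ℕ) (K : Set (E n)), IsCompact K → 0 < vol K →
      isoPow (pyramid K) / cN (n + 1) = isoPow K / cN n ∧
      IsCompact (pyramid K) ∧ 0 < vol (pyramid K) ∧ (Convex ℝ K → Convex ℝ (pyramid K)) ∧
      (1 ≤ n → (isoConst (pyramid K) ≤ simplexConst (n + 1) ↔ isoConst K ≤ simplexConst n))) ∧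
    (∀ (n m : ℕ) (K : Set (E n)) (K' : Set (E m)), IsCompact K → IsCompact K' → 0 < vol K →
      0 < vol K' →
      isoPow (prod K K') = isoPow K * isoPow K' ∧
      IsCompact (prod K K') ∧ 0 < vol (prod K K') ∧
      (Convex ℝ K → Convex ℝ K' → Convex ℝ (prod K K')) ∧
      (1 ≤ n → 1 ≤ m → isoConst K ≤ simplexConst n → isoConst K' ≤ simplexConst m →
        isoConst (prod K K') < simplexConst (n + m))) ∧
    (∀ (n m : ℕ) (K : Set (E n)) (K' : Set (E m)), 1 ≤ n → 1 ≤ m → IsCompact K → IsCompact K' →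
      0 < vol K → 0 < vol K' → Strong K → Strong K' → Strong (join K K')) ∧
    (∀ (n : ℕ) (K : Set (E n)), 1 ≤ n → IsCompact K → (interior K).Nonempty → 0 < vol K →
      (Strong (pyramid K) ↔ Strong K)) ∧
    (∀ n : ℕ, 1 ≤ n → StrongConj (n + 1) → StrongConj n) ∧
    (∀ (n m : ℕ) (K : Set (E n)) (K' : Set (E m)), IsCompact K → IsCompact K' → Convex ℝ K →
      Convex ℝ K' → (0 : E n) ∈ K → (0 : E m) ∈ K' → 0 < vol K → 0 < vol K' →
      free K K' = convexHull ℝ ((fun x : E n => Fin.append x (0 : E m)) '' K ∪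
        (fun y : E m => Fin.append (0 : E n) y) '' K') ∧
      IsCompact (free K K') ∧ Convex ℝ (free K K') ∧ 0 < vol (free K K') ∧
      (0 ≤ sOrigin K ∧ sOrigin K ≤ (n : ℝ) * ((n : ℝ) + 2)) ∧
      (0 ≤ sOrigin K' ∧ sOrigin K' ≤ (m : ℝ) * ((m : ℝ) + 2)) ∧
      isoPow (free K K') / cN (n + m) = (isoPow K / cN n) * (isoPow K' / cN m)
        * (1 - ((n : ℝ) * ((n : ℝ) + 2) - sOrigin K) * ((m : ℝ) * ((m : ℝ) + 2) - sOrigin K')
            / (((n : ℝ) + 1) * ((n : ℝ) + 2) * ((m : ℝ) + 1) * ((m : ℝ) + 2))) ∧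
      isoPow (free K K') / cN (n + m) ≤ (isoPow K / cN n) * (isoPow K' / cN m) ∧
      (1 ≤ n → 1 ≤ m → isoConst K ≤ simplexConst n → isoConst K' ≤ simplexConst m →
        isoConst (free K K') ≤ simplexConst (n + m)) ∧
      (1 ≤ n → 1 ≤ m → Strong K → Strong K' → Strong (free K K'))) ∧
    (∀ n : ℕ, 1 ≤ n → StrongConj n → ∀ K : Set (E n), IsCompact K → Convex ℝ K →
      (interior K).Nonempty →
      Strong (pyramid K) ∧
      (∀ a b : ℝ, a < b → isoConst (prod K (seg a b)) < simplexConst (n + 1)) ∧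
      ((0 : E n) ∈ K → ∀ a b : ℝ, a ≤ 0 → 0 ≤ b → a < b → Strong (free K (seg a b))))

/-- Second half of the statement: no local maximizers among non-simplex hulls of at most `n+2` points, the limit of the
simplex value, iterated joins, and the equivalence of the inequality with its asymptotic forms. -/
def PartB : Prop :=
    (∀ n : ℕ, 1 ≤ n → ∀ s : Finset (E n), s.card ≤ n + 2 →
      (interior (convexHull ℝ (s : Set (E n)))).Nonempty →
      ¬ IsSimplex (convexHull ℝ (s : Set (E n))) →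
        ∀ ε : ℝ, 0 < ε → ∃ s' : Finset (E n), s'.card ≤ n + 2 ∧
          (interior (convexHull ℝ (s' : Set (E n)))).Nonempty ∧
          Metric.hausdorffDist (convexHull ℝ (s : Set (E n))) (convexHull ℝ (s' : Set (E n))) < ε ∧
          isoConst (convexHull ℝ (s : Set (E n))) < isoConst (convexHull ℝ (s' : Set (E n)))) ∧
    (∀ n : ℕ, 1 ≤ n → simplexConst n ≤ Real.exp (-1)) ∧
    (∀ ε : ℝ, 0 < ε → ∃ N0 : ℕ, ∀ N : ℕ, N0 ≤ N → Real.exp (-1) ≤ (1 + ε) * simplexConst N) ∧
    (∀ (n : ℕ) (K : Set (E n)), IsCompact K → Convex ℝ K → (interior K).Nonempty → ∀ k : ℕ,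
      IsCompact (joinPow K k) ∧ Convex ℝ (joinPow K k) ∧ (interior (joinPow K k)).Nonempty ∧
      dimJ n k + 1 = (k + 1) * (n + 1) ∧
      isoPow (joinPow K k) / cN (dimJ n k) = (isoPow K / cN n) ^ (k + 1)) ∧
    ((∀ ε : ℝ, 0 < ε → ∃ N0 : ℕ, ∀ N : ℕ, N0 ≤ N → ∀ K : Set (E N), IsCompact K → Convex ℝ K →
        (interior K).Nonempty → isoConst K ≤ (1 + ε) * simplexConst N) ↔
      (∀ n : ℕ, 1 ≤ n → ∀ K : Set (E n), IsCompact K → Convex ℝ K → (interior K).Nonempty →
        isoConst K ≤ simplexConst n)) ∧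
    ((∀ ε : ℝ, 0 < ε → ∃ N0 : ℕ, ∀ N : ℕ, N0 ≤ N → ∀ K : Set (E N), IsCompact K → Convex ℝ K →
        (interior K).Nonempty → isoConst K ≤ Real.exp (-1) + ε) ↔
      (∀ n : ℕ, 1 ≤ n → ∀ K : Set (E n), IsCompact K → Convex ℝ K → (interior K).Nonempty →
        isoConst K ≤ simplexConst n))

theorem result : PartA ∧ PartB :=
  ⟨AAllResults.result, fun n hn => (AALocalGlobal.result n hn).2.2.1,
    AAsymptotic.result.2.1, AAsymptotic.result.2.2.1, AAsymptotic.result.2.2.2.2.1,
    AAsymptotic.result.2.2.2.2.2.1, AAsymptotic.result.2.2.2.2.2.2⟩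

end Vale.Agent.Results.P254.AAAEverything
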