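import Vale.Agent.Lib.P254.TFinal

/-!
# P254: the strong isotropic constant conjecture for polytopes with at most n+2 vertices and for
polytopes with n+m vertices that split into m parts whose convex hulls share a point

For every `n ≥ 1`:
* every `n`-simplex of `ℝ^n` has `L_T = ((n!)^2 / ((n+1)^(n+1) (n+2)^n))^(1/(2n))`;
* every convex body that is the convex hull of at most `n+2` points satisfies `L_K ≤ L_{Δ_n}`,
  with equality only for simplices;
* if `n+m` points with full-dimensional hull `K` split into `m` parts and a point `o` is a convex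
  combination (weights `a_i`) of each part, then
  `L_K^{2n} = L_{Δ_n}^{2n} ∏ α_r (∑ 1/α_r - (m-1))`, `α_r = ∑_{part r} a_i^2`, hence `L_K ≤ L_{Δ_n}`,
  with equality only for simplices.
-/

namespace Vale.Agent.Results.P254.AFreeSums

open _root_.P254

theorem result (n : ℕ) (hn : 1 ≤ n) :
    (∀ T : Set (E n), IsSimplex T → isoConst T = simplexConst n) ∧
    (∀ s : Finset (E n), s.card ≤ n + 2 →
      (interior (convexHull ℝ (s : Set (E n)))).Nonempty →
        isoConst (convexHull ℝ (s : Set (E n))) ≤ simplexConst n ∧
        (isoConst (convexHull ℝ (s : Set (E n))) = simplexConst n →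
          IsSimplex (convexHull ℝ (s : Set (E n))))) ∧
    (∀ (m : ℕ) (ι : Type) [Fintype ι] (v : ι → E n) (β : ι → Fin m) (a : ι → ℝ) (o : E n),
      1 ≤ m → Fintype.card ι = n + m → (∀ i, 0 ≤ a i) →
      (∀ r, ∑ i, (if β i = r then a i else 0) = 1) →
      (∀ r, ∑ i, (if β i = r then a i • v i else 0) = o) →
      (interior (convexHull ℝ (Set.range v))).Nonempty →
        isoPow (convexHull ℝ (Set.range v))
          = cN n * ((∏ r : Fin m, ∑ i, (if β i = r then (a i) ^ 2 else 0))
              * (∑ r : Fin m, 1 / (∑ i, (if β i = r then (a i) ^ 2 else 0)) - ((m : ℝ) - 1))) ∧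
        isoConst (convexHull ℝ (Set.range v)) ≤ simplexConst n ∧
        (isoConst (convexHull ℝ (Set.range v)) = simplexConst n →
          IsSimplex (convexHull ℝ (Set.range v)))) :=
  ⟨(_root_.P254.main n hn).1, (_root_.P254.main n hn).2,
    fun m _ _ v β a o hm hcard ha hsum ho hint =>
      _root_.P254.mainT n m hn hm hcard v β a o ha hsum ho hint⟩

end Vale.Agent.Results.P254.AFreeSums
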